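import Mathlib

/-!
# Functions with positive real part on the disk: growth and area integrals
-/

noncomputable section

open Metric MeasureTheory Set Filter Topology
open scoped ComplexConjugate

namespace Vale.Agent.P142

/-- A function with positive real part grows at most like `1/(1-r)`. -/
theorem norm_le_of_re_pos {q : ℂ → ℂ} (hd : DifferentiableOn ℂ q (ball 0 1))
    (hre : ∀ z ∈ ball (0 : ℂ) 1, 0 < (q z).re) {z : ℂ} (hz : z ∈ ball (0 : ℂ) 1) :
    ‖q z‖ ≤ 2 * ‖q 0‖ / (1 - ‖z‖) := by
  have hq0 := hre 0 (mem_ball_self one_pos)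
  have hz1 : ‖z‖ < 1 := by simpa using hz
  have hne : ∀ w ∈ ball (0 : ℂ) 1, q w + conj (q 0) ≠ 0 := fun w hw h => by
    have h' := congrArg Complex.re h
    simp only [Complex.add_re, Complex.conj_re, Complex.zero_re] at h'
    linarith [hre w hw]
  set b : ℂ → ℂ := fun w => (q w - q 0) / (q w + conj (q 0)) with hb
  have hbd : DifferentiableOn ℂ b (ball 0 1) := (hd.sub_const _).div (hd.add_const _) hne
  have hb1 : MapsTo b (ball 0 1) (ball 0 1) := fun w hw => by
    rw [mem_ball_zero_iff, hb]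
    simp only [norm_div]
    rw [div_lt_one (norm_pos_iff.2 (hne w hw))]
    refine lt_of_pow_lt_pow_left₀ 2 (norm_nonneg _) ?_
    rw [Complex.sq_norm, Complex.sq_norm]
    simp only [Complex.normSq_apply, Complex.sub_re, Complex.sub_im, Complex.add_re,
      Complex.add_im, Complex.conj_re, Complex.conj_im]
    nlinarith [mul_pos (hre w hw) hq0]
  have hbz : ‖b z‖ ≤ ‖z‖ :=
    Complex.norm_le_norm_of_mapsTo_ball hbd (hb1.mono_right ball_subset_closedBall)
      (by simp [hb]) hz1
  have he : q z * (1 - b z) = q 0 + conj (q 0) * b z := by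
    have := hne z hz
    simp only [hb]
    field_simp
    ring
  have h1 : ‖q z‖ * (1 - ‖z‖) ≤ ‖q z * (1 - b z)‖ := by
    rw [norm_mul]
    refine mul_le_mul_of_nonneg_left ?_ (norm_nonneg _)
    calc 1 - ‖z‖ ≤ 1 - ‖b z‖ := by linarith
      _ ≤ ‖(1 : ℂ) - b z‖ := by
          have := norm_sub_norm_le (1 : ℂ) (b z)
          simpa using this
  have h2 : ‖q 0 + conj (q 0) * b z‖ ≤ 2 * ‖q 0‖ := by
    refine (norm_add_le _ _).trans ?_
    rw [norm_mul, Complex.norm_conj]
    nlinarith [norm_nonneg (q 0), hbz]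
  rw [le_div_iff₀ (by linarith)]
  exact h1.trans (he ▸ h2)

/-- The real part of an analytic function on the disk has constant circle means. -/
theorem integral_re_circle {W : ℂ → ℂ} (hd : DifferentiableOn ℂ W (ball 0 1)) {ρ : ℝ}
    (h0 : 0 ≤ ρ) (h1 : ρ < 1) :
    ∫ θ in (-Real.pi)..Real.pi, (W (circleMap 0 ρ θ)).re = 2 * Real.pi * (W 0).re := by
  have hsub : closedBall (0 : ℂ) |ρ| ⊆ ball 0 1 := by
    rw [abs_of_nonneg h0]; exact closedBall_subset_ball h1
  have hm : Real.circleAverage W 0 ρ = W 0 :=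
    ((hd.mono hsub).diffContOnCl_ball subset_rfl).circleAverage
  rw [Real.circleAverage_def] at hm
  have hc : Continuous fun θ => W (circleMap 0 ρ θ) :=
    (hd.mono hsub).continuousOn.comp_continuous (continuous_circleMap 0 ρ) fun θ => by
      simp [abs_of_nonneg h0, h0]
  have hre : ∫ θ in (0 : ℝ)..2 * Real.pi, (W (circleMap 0 ρ θ)).re = 2 * Real.pi * (W 0).re := by
    have h2 := congrArg Complex.re hm
    simp only [Complex.smul_re] at h2
    have h3 := Complex.reCLM.intervalIntegral_comp_comm (hc.intervalIntegrable (μ := volume) 0 (2 * Real.pi))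
    simp only [Complex.reCLM_apply] at h3
    rw [h3, ← h2, smul_eq_mul]
    field_simp
  have hp : Function.Periodic (fun θ => (W (circleMap 0 ρ θ)).re) (2 * Real.pi) := fun θ => by
    show (W (circleMap 0 ρ (θ + 2 * Real.pi))).re = (W (circleMap 0 ρ θ)).re
    rw [periodic_circleMap 0 ρ θ]
  have h4 := hp.intervalIntegral_add_eq (-Real.pi) 0
  rw [zero_add, show -Real.pi + 2 * Real.pi = Real.pi by ring] at h4
  rw [h4, hre]

/-- An analytic function with nonnegative real part times an integrable power of the distance to the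
circle has finite area integral. -/
theorem integrableOn_weight {W : ℂ → ℂ} (hd : DifferentiableOn ℂ W (ball 0 1))
    (hre : ∀ z ∈ ball (0 : ℂ) 1, 0 ≤ (W z).re) {e : ℝ} (he : e < 1) :
    IntegrableOn (fun z : ℂ => (W z).re * (1 - ‖z‖) ^ (-e)) (ball 0 1) := by
  set M : ℂ → ℝ := fun z => (W z).re * (1 - ‖z‖) ^ (-e) with hM
  have hMc : ContinuousOn M (ball 0 1) :=
    (Complex.continuous_re.comp_continuousOn hd.continuousOn).mul
      ((continuousOn_const.sub continuous_norm.continuousOn).rpow_const fun z hz => Or.inl (by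
        have : ‖z‖ < 1 := by simpa using hz
        show (1 : ℝ) - ‖z‖ ≠ 0
        linarith))
  have hM0 : ∀ z ∈ ball (0 : ℂ) 1, 0 ≤ M z := fun z hz => mul_nonneg (hre z hz)
    (Real.rpow_nonneg (by
      have : ‖z‖ < 1 := by simpa using hz
      linarith) _)
  refine ⟨hMc.aestronglyMeasurable measurableSet_ball, ?_⟩
  rw [hasFiniteIntegral_iff_ofReal (ae_restrict_of_forall_mem measurableSet_ball hM0)]
  rw [← lintegral_indicator measurableSet_ball, ← Complex.lintegral_comp_polarCoord_symm]
  set R : Set (ℝ × ℝ) := Ioo 0 1 ×ˢ Ioo (-Real.pi) Real.pi with hR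
  have hcm : ∀ p : ℝ × ℝ, Complex.polarCoord.symm p = circleMap 0 p.1 p.2 := fun p => by
    rw [Complex.polarCoord_symm_apply, circleMap, zero_add, Complex.exp_mul_I]; push_cast; rfl
  have hmem : ∀ p : ℝ × ℝ, 0 < p.1 →
      (circleMap (0 : ℂ) p.1 p.2 ∈ ball (0 : ℂ) 1 ↔ p.1 < 1) := fun p hp => by
    rw [mem_ball_zero_iff, norm_circleMap_zero, abs_of_pos hp]
  have hle : ∫⁻ p in polarCoord.target, ENNReal.ofReal p.1 •
        (ball (0 : ℂ) 1).indicator (fun z => ENNReal.ofReal (M z)) (Complex.polarCoord.symm p) ≤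
      ∫⁻ p in R, ENNReal.ofReal (M (circleMap 0 p.1 p.2)) := by
    rw [← lintegral_indicator polarCoord.open_target.measurableSet,
      ← lintegral_indicator (measurableSet_Ioo.prod measurableSet_Ioo)]
    refine lintegral_mono fun p => Set.indicator_le' (fun p hp => ?_) (fun _ _ => bot_le) p
    rw [polarCoord_target] at hp
    obtain ⟨h1, h2⟩ := hp
    rw [hcm]
    by_cases h : p.1 < 1
    · rw [Set.indicator_of_mem ((hmem p h1).2 h),
        Set.indicator_of_mem (show p ∈ R from ⟨⟨h1, h⟩, h2⟩)]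
      exact mul_le_of_le_one_left' (ENNReal.ofReal_le_one.2 h.le)
    · rw [Set.indicator_of_notMem fun hc => h ((hmem p h1).1 hc)]
      simp
  refine lt_of_le_of_lt hle ?_
  have hRc : ContinuousOn (fun p : ℝ × ℝ => M (circleMap 0 p.1 p.2)) R := by
    refine hMc.comp (Continuous.continuousOn ?_) fun p hp => (hmem p hp.1.1).2 hp.1.2
    simp only [circleMap]
    fun_prop
  rw [Measure.volume_eq_prod, ← Measure.prod_restrict,
    lintegral_prod _ (by
      rw [Measure.prod_restrict, ← Measure.volume_eq_prod]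
      exact (hRc.aemeasurable (measurableSet_Ioo.prod measurableSet_Ioo)).ennreal_ofReal)]
  have hin : ∀ ρ ∈ Ioo (0 : ℝ) 1,
      ∫⁻ θ in Ioo (-Real.pi) Real.pi, ENNReal.ofReal (M (circleMap 0 ρ θ)) =
        ENNReal.ofReal (2 * Real.pi * (W 0).re * (1 - ρ) ^ (-e)) := by
    intro ρ hρ
    have hmem' : ∀ θ, circleMap (0 : ℂ) ρ θ ∈ ball (0 : ℂ) 1 := fun θ => (hmem (ρ, θ) hρ.1).2 hρ.2
    have hcont : Continuous fun θ => M (circleMap 0 ρ θ) :=
      hMc.comp_continuous (continuous_circleMap 0 ρ) hmem'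
    rw [← ofReal_integral_eq_lintegral_ofReal
      ((hcont.integrableOn_Icc (a := -Real.pi) (b := Real.pi)).mono_set Ioo_subset_Icc_self)
      (Eventually.of_forall fun θ => hM0 _ (hmem' θ))]
    congr 1
    rw [← integral_Ioc_eq_integral_Ioo,
      ← intervalIntegral.integral_of_le (by linarith [Real.pi_pos])]
    simp only [hM, norm_circleMap_zero, abs_of_pos hρ.1, intervalIntegral.integral_mul_const,
      integral_re_circle hd hρ.1.le hρ.2]
  rw [setLIntegral_congr_fun measurableSet_Ioo hin]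
  have hint : IntegrableOn (fun ρ : ℝ => 2 * Real.pi * (W 0).re * (1 - ρ) ^ (-e)) (Ioo 0 1) := by
    have h := ((intervalIntegral.intervalIntegrable_rpow' (a := 1) (b := 0) (r := -e)
      (by linarith)).comp_sub_left 1).const_mul (2 * Real.pi * (W 0).re)
    simp only [sub_self, sub_zero] at h
    exact (intervalIntegrable_iff_integrableOn_Ioo_of_le zero_le_one).1 h
  exact hint.lintegral_lt_top

end Vale.Agent.P142
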