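import Vale.Agent.P142.Defs
import Vale.Agent.P142.Disk

/-!
# Brennan's integrability for Bazilevic functions

Along a radius the starlike function increases in modulus, so the derivative of a Bazilevic function
is at least the half plane valued factor `p`, up to an arbitrarily small power of the distance to the
circle; the reciprocal of `p` is area integrable to every power below two.
-/

noncomputable section

open Metric MeasureTheory Set Filter Topology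
open scoped ComplexConjugate

namespace Vale.Agent.P142

lemma ray_mem {e : ℂ} (he : ‖e‖ = 1) {ρ : ℝ} (h0 : 0 ≤ ρ) (h1 : ρ < 1) :
    (ρ : ℂ) * e ∈ ball (0 : ℂ) 1 := by
  simp [he, abs_of_nonneg h0, h1]

lemma hasDerivAt_ray {F : ℂ → ℂ} (hF : DifferentiableOn ℂ F (ball 0 1)) {e : ℂ} (he : ‖e‖ = 1)
    {ρ : ℝ} (h0 : 0 ≤ ρ) (h1 : ρ < 1) :
    HasDerivAt (fun t : ℝ => F ((t : ℂ) * e)) (deriv F ((ρ : ℂ) * e) * e) ρ := by
  have h2 := (hF.differentiableAt (isOpen_ball.mem_nhds (ray_mem he h0 h1))).hasDerivAt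
  have h3 : HasDerivAt (fun t : ℝ => (t : ℂ) * e) e ρ := by
    simpa using ((hasDerivAt_id ρ).ofReal_comp).mul_const e
  exact h2.comp ρ h3

/-- The modulus of a starlike function increases along the radii. -/
theorem starlike_mono {g : ℂ → ℂ} (hg : IsStarlike g) {e : ℂ} (he : ‖e‖ = 1) {a b : ℝ}
    (ha : 0 < a) (hab : a ≤ b) (hb : b < 1) : ‖g ((a : ℂ) * e)‖ ≤ ‖g ((b : ℂ) * e)‖ := by
  obtain ⟨hd, -, -, hpos⟩ := hg
  have hder := fun ρ (hρ : ρ ∈ Icc a b) =>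
    (hasDerivAt_ray hd he (ha.le.trans hρ.1) (lt_of_le_of_lt hρ.2 hb)).norm_sq
  have hmono : MonotoneOn (fun t : ℝ => ‖g ((t : ℂ) * e)‖ ^ 2) (Icc a b) := by
    refine monotoneOn_of_hasDerivWithinAt_nonneg (convex_Icc _ _)
      (fun ρ hρ => (hder ρ hρ).continuousAt.continuousWithinAt)
      (fun ρ hρ => (hder ρ (interior_subset hρ)).hasDerivWithinAt) fun ρ hρ => ?_
    have hρ' := interior_subset (s := Icc a b) hρ
    have hρ0 : 0 < ρ := ha.trans_le hρ'.1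
    have he0 : e ≠ 0 := fun h => by simp [h] at he
    obtain ⟨hne, hre⟩ := hpos _ (ray_mem he hρ0.le (lt_of_le_of_lt hρ'.2 hb))
      (mul_ne_zero (by exact_mod_cast hρ0.ne') he0)
    rw [Complex.inner]
    refine mul_nonneg zero_le_two ?_
    set z := (ρ : ℂ) * e
    have hρc : (ρ : ℂ) ≠ 0 := by exact_mod_cast hρ0.ne'
    have : deriv g z * e * conj (g z) =
        ((Complex.normSq (g z) / ρ : ℝ) : ℂ) * (z * deriv g z / g z) := by
      push_cast
      rw [← Complex.mul_conj]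
      field_simp
      simp only [z]
      ring
    rw [this, Complex.re_ofReal_mul]
    exact mul_nonneg (div_nonneg (Complex.normSq_nonneg _) hρ0.le) hre.le
  exact le_of_pow_le_pow_left₀ two_ne_zero (norm_nonneg _)
    (hmono (left_mem_Icc.2 hab) (right_mem_Icc.2 hab) hab)

/-- A starlike function is bounded below away from the origin. -/
theorem starlike_lower {g : ℂ → ℂ} (hg : IsStarlike g) :
    ∃ c : ℝ, 0 < c ∧ ∀ z ∈ ball (0 : ℂ) 1, 1 / 2 ≤ ‖z‖ → c ≤ ‖g z‖ := by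
  obtain ⟨hd, -, -, hpos⟩ := id hg
  have hs : sphere (0 : ℂ) (1 / 2) ⊆ ball 0 1 := fun z hz => by
    rw [mem_sphere_zero_iff_norm] at hz
    simp only [mem_ball_zero_iff, hz]
    norm_num
  obtain ⟨c, hc, hcle⟩ := (isCompact_sphere (0 : ℂ) (1 / 2)).exists_forall_le' (a := (0 : ℝ))
    (hd.continuousOn.mono hs).norm fun z hz => norm_pos_iff.2
      (hpos z (hs hz) (ne_zero_of_mem_sphere (by norm_num) ⟨z, hz⟩)).1
  refine ⟨c, hc, fun z hz hz2 => ?_⟩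
  have hz0 : 0 < ‖z‖ := by linarith
  have he : ‖z / (‖z‖ : ℂ)‖ = 1 := by simp [hz0.ne']
  have hmem : ((1 / 2 : ℝ) : ℂ) * (z / ‖z‖) ∈ sphere (0 : ℂ) (1 / 2) := by
    rw [mem_sphere_zero_iff_norm, norm_mul, he, mul_one, Complex.norm_real]
    norm_num
  refine (hcle _ hmem).trans ((starlike_mono hg he (by norm_num) hz2 (by simpa using hz)).trans_eq ?_)
  have : (‖z‖ : ℂ) ≠ 0 := by exact_mod_cast hz0.ne'
  rw [mul_div_cancel₀ _ this]

section

variable {α : ℝ} {f g L p : ℂ → ℂ}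

/-- The identity of moduli. -/
theorem norm_identity (hg : IsStarlike g)
    (heq : ∀ z ∈ ball (0 : ℂ) 1, f z = g z * Complex.exp (L z) ∧
      z * deriv f z = f z * (p z * Complex.exp (-((α : ℂ) * L z))))
    {z : ℂ} (hz : z ∈ ball (0 : ℂ) 1) (hz0 : z ≠ 0) :
    0 < ‖f z‖ ∧ ‖z‖ * ‖deriv f z‖ = ‖p z‖ * (‖g z‖ ^ α * ‖f z‖ ^ (1 - α)) := by
  obtain ⟨h1, h2⟩ := heq z hz
  have hgp : 0 < ‖g z‖ := norm_pos_iff.2 (hg.2.2.2 z hz hz0).1
  have hf : ‖f z‖ = ‖g z‖ * Real.exp (L z).re := by rw [h1, norm_mul, Complex.norm_exp]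
  refine ⟨by rw [hf]; positivity, ?_⟩
  have h3 := congrArg (fun w : ℂ => ‖w‖) h2
  simp only [norm_mul, Complex.norm_exp, Complex.neg_re, Complex.re_ofReal_mul] at h3
  rw [h3, hf, Real.mul_rpow hgp.le (Real.exp_pos _).le, ← mul_assoc (‖g z‖ ^ α),
    ← Real.rpow_add hgp, add_sub_cancel, Real.rpow_one, ← Real.exp_mul]
  calc ‖g z‖ * Real.exp (L z).re * (‖p z‖ * Real.exp (-(α * (L z).re)))
      = ‖p z‖ * (‖g z‖ * (Real.exp (L z).re * Real.exp (-(α * (L z).re)))) := by ring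
    _ = _ := by rw [← Real.exp_add]; ring_nf

/-- Lower bound of the factor multiplying `p` near the circle. -/
theorem factor_lower (hα : 0 < α) (hf : DifferentiableOn ℂ f (ball 0 1))
    (hinj : InjOn f (ball 0 1)) (hf0 : f 0 = 0) (hg : IsStarlike g)
    (heq : ∀ z ∈ ball (0 : ℂ) 1, f z = g z * Complex.exp (L z) ∧
      z * deriv f z = f z * (p z * Complex.exp (-((α : ℂ) * L z))))
    {K : ℝ} (hK : ∀ z ∈ ball (0 : ℂ) 1, ‖p z‖ ≤ K / (1 - ‖z‖)) {ε : ℝ} (hε : 0 < ε) :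
    ∃ c : ℝ, 0 < c ∧ ∀ z ∈ ball (0 : ℂ) 1, 1 / 2 ≤ ‖z‖ →
      c * (1 - ‖z‖) ^ ε ≤ ‖g z‖ ^ α * ‖f z‖ ^ (1 - α) := by
  obtain ⟨c₀, hc₀, hgl⟩ := starlike_lower hg
  rcases le_or_gt α 1 with hα1 | hα1
  · -- injectivity keeps `f` away from zero
    obtain ⟨δ, hδ, hfl⟩ : ∃ δ : ℝ, 0 < δ ∧ ∀ z ∈ ball (0 : ℂ) 1, 1 / 2 ≤ ‖z‖ → δ ≤ ‖f z‖ := by
      rcases (hf.analyticOnNhd isOpen_ball).is_constant_or_isOpen
        (convex_ball (0 : ℂ) 1).isPreconnected with ⟨w, hw⟩ | hop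
      · exfalso
        have h1 : (1 / 2 : ℂ) ∈ ball (0 : ℂ) 1 := by rw [mem_ball_zero_iff]; norm_num
        have := hinj h1 (mem_ball_self one_pos) (by rw [hw _ h1, hw _ (mem_ball_self one_pos)])
        norm_num at this
      have hsub : ball (0 : ℂ) (1 / 2) ⊆ ball 0 1 := ball_subset_ball (by norm_num)
      obtain ⟨δ, hδ, hball⟩ := Metric.isOpen_iff.1 (hop _ hsub isOpen_ball) (f 0)
        (mem_image_of_mem f (mem_ball_self (by norm_num)))
      refine ⟨δ, hδ, fun z hz hz2 => ?_⟩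
      by_contra hc
      obtain ⟨w, hw, hwz⟩ := hball (show f z ∈ ball (f 0) δ by
        rw [hf0, mem_ball_zero_iff]; exact not_le.1 hc)
      rw [hinj (hsub hw) hz hwz, mem_ball_zero_iff] at hw
      linarith
    refine ⟨c₀ ^ α * δ ^ (1 - α), by positivity, fun z hz hz2 => ?_⟩
    have hz1 : ‖z‖ < 1 := by simpa using hz
    refine (mul_le_of_le_one_right (by positivity)
      (Real.rpow_le_one (by linarith) (by linarith) hε.le)).trans ?_
    exact mul_le_mul (Real.rpow_le_rpow hc₀.le (hgl z hz hz2) hα.le)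
      (Real.rpow_le_rpow hδ.le (hfl z hz hz2) (by linarith)) (by positivity) (by positivity)
  -- for large exponents integrate along the radius
  have hs : sphere (0 : ℂ) (1 / 2) ⊆ ball 0 1 := fun z hz => by
    rw [mem_sphere_zero_iff_norm] at hz
    simp only [mem_ball_zero_iff, hz]
    norm_num
  obtain ⟨F₀, hF₀⟩ := (isCompact_sphere (0 : ℂ) (1 / 2)).bddAbove_image
    (hf.continuousOn.mono hs).norm
  set K' := max K 0
  set F' := max F₀ 0
  set C₁ : ℝ := F' ^ α / c₀ ^ α + 2 * α * K' / ε + 1 with hC₁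
  have hC₁1 : 1 ≤ C₁ := by
    have : 0 ≤ F' ^ α / c₀ ^ α + 2 * α * K' / ε := by positivity
    rw [hC₁]; linarith
  set m : ℝ := (α - 1) / α with hm
  have hm0 : 0 ≤ m := div_nonneg (by linarith) hα.le
  have hm1 : m ≤ 1 := by rw [hm, div_le_one hα]; linarith
  refine ⟨c₀ * C₁ ^ (-m), by positivity, fun z hz hz2 => ?_⟩
  have hz1 : ‖z‖ < 1 := by simpa using hz
  set r := ‖z‖ with hr
  have hr0 : 0 < r := by linarith
  set e : ℂ := z / r with hedef
  have he : ‖e‖ = 1 := by simp [hedef, hr, hr0.ne', norm_ne_zero_iff.1 (hr ▸ hr0.ne')]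
  have hze : (r : ℂ) * e = z := by
    have : (r : ℂ) ≠ 0 := by exact_mod_cast hr0.ne'
    rw [hedef, mul_div_cancel₀ _ this]
  set A := ‖g z‖ ^ α with hA
  set cc := 2 * α * K' * A with hcc
  have hder : ∀ ρ ∈ Icc (1 / 2 : ℝ) r, ∃ φ' : ℝ, φ' ≤ cc / (1 - ρ) ∧
      HasDerivAt (fun t : ℝ => (‖f ((t : ℂ) * e)‖ ^ 2) ^ (α / 2)) φ' ρ := by
    intro ρ hρ
    have hρ0 : 0 < ρ := by linarith [hρ.1]
    have hρ1 : ρ < 1 := lt_of_le_of_lt hρ.2 hz1
    set w := (ρ : ℂ) * e with hw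
    have hwm : w ∈ ball (0 : ℂ) 1 := ray_mem he hρ0.le hρ1
    have hwn : ‖w‖ = ρ := by simp [hw, he, abs_of_pos hρ0]
    have hw0 : w ≠ 0 := norm_ne_zero_iff.1 (hwn ▸ hρ0.ne')
    obtain ⟨hfp, hid⟩ := norm_identity hg heq hwm hw0
    refine ⟨_, ?_, ((hasDerivAt_ray hf he hρ0.le hρ1).norm_sq.rpow_const
      (Or.inl (pow_ne_zero 2 hfp.ne')))⟩
    rw [← hw]
    have h1 := abs_real_inner_le_norm (f w) (deriv f w * e)
    rw [norm_mul, he, mul_one] at h1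
    have e1 : (‖f w‖ ^ 2) ^ (α / 2 - 1) = ‖f w‖ ^ (α - 2) := by
      rw [← Real.rpow_two, ← Real.rpow_mul hfp.le]; congr 1; ring
    have h2 : ρ * (‖f w‖ ^ (α - 1) * ‖deriv f w‖) = ‖g w‖ ^ α * ‖p w‖ := by
      rw [show ρ * (‖f w‖ ^ (α - 1) * ‖deriv f w‖) = ‖f w‖ ^ (α - 1) * (ρ * ‖deriv f w‖) by ring,
        ← hwn, hid]
      rw [show ‖f w‖ ^ (α - 1) * (‖p w‖ * (‖g w‖ ^ α * ‖f w‖ ^ (1 - α))) =
        ‖g w‖ ^ α * ‖p w‖ * (‖f w‖ ^ (α - 1) * ‖f w‖ ^ (1 - α)) by ring, ← Real.rpow_add hfp]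
      simp
    have h3 : ‖f w‖ ^ (α - 1) * ‖deriv f w‖ ≤ 2 * K' * A / (1 - ρ) := by
      have h5 : ‖g w‖ ^ α ≤ A := by
        refine Real.rpow_le_rpow (norm_nonneg _) ?_ hα.le
        have := starlike_mono hg he hρ0 hρ.2 hz1
        rwa [hze] at this
      have h6 : ‖p w‖ ≤ K' / (1 - ρ) := by
        refine (hK w hwm).trans ?_
        rw [hwn]
        exact div_le_div_of_nonneg_right (le_max_left _ _) (by linarith)
      have h7 : ρ * (‖f w‖ ^ (α - 1) * ‖deriv f w‖) ≤ A * (K' / (1 - ρ)) :=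
        h2 ▸ mul_le_mul h5 h6 (norm_nonneg _) (by positivity)
      have h8 : 0 ≤ ‖f w‖ ^ (α - 1) * ‖deriv f w‖ := by positivity
      calc ‖f w‖ ^ (α - 1) * ‖deriv f w‖ ≤ 2 * (A * (K' / (1 - ρ))) := by nlinarith [hρ.1]
        _ = _ := by ring
    have e2 : ‖f w‖ * ‖f w‖ ^ (α - 2) = ‖f w‖ ^ (α - 1) := by
      rw [mul_comm, ← Real.rpow_add_one hfp.ne']; congr 1; ring
    rw [e1]
    have h9 : 0 ≤ α * ‖f w‖ ^ (α - 2) := by positivity
    calc _ ≤ α * ‖f w‖ ^ (α - 2) * (‖f w‖ * ‖deriv f w‖) := by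
          refine le_trans (le_of_eq ?_) (mul_le_mul_of_nonneg_left ((le_abs_self _).trans h1) h9)
          ring
      _ = α * (‖f w‖ ^ (α - 1) * ‖deriv f w‖) := by rw [← e2]; ring
      _ ≤ α * (2 * K' * A / (1 - ρ)) := mul_le_mul_of_nonneg_left h3 hα.le
      _ = cc / (1 - ρ) := by rw [hcc]; ring
  choose! φ' hle hφ using hder
  have hψ : ∀ ρ ∈ Icc (1 / 2 : ℝ) r, HasDerivAt
      (fun t : ℝ => (‖f ((t : ℂ) * e)‖ ^ 2) ^ (α / 2) + cc * Real.log (1 - t))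
      (φ' ρ + cc * (-1 / (1 - ρ))) ρ := fun ρ hρ =>
    (hφ ρ hρ).add ((((hasDerivAt_id ρ).const_sub 1).log
      (by simp only [id]; linarith [hρ.2])).const_mul cc)
  have hanti := antitoneOn_of_hasDerivWithinAt_nonpos (convex_Icc (1 / 2 : ℝ) r)
    (fun ρ hρ => (hψ ρ hρ).continuousAt.continuousWithinAt)
    (fun ρ hρ => (hψ ρ (interior_subset hρ)).hasDerivWithinAt) (fun ρ hρ => by
      have h := hle ρ (interior_subset hρ)
      have : cc * (-1 / (1 - ρ)) = -(cc / (1 - ρ)) := by ring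
      linarith)
    (left_mem_Icc.2 hz2) (right_mem_Icc.2 hz2) hz2
  simp only [hze] at hanti
  have hsq : ∀ x : ℝ, 0 ≤ x → (x ^ 2) ^ (α / 2) = x ^ α := fun x hx => by
    rw [← Real.rpow_two, ← Real.rpow_mul hx]; congr 1; ring
  rw [hsq _ (norm_nonneg _), hsq _ (norm_nonneg _)] at hanti
  set X := ((1 - r) ^ ε)⁻¹ with hX
  have hr1 : (0 : ℝ) < 1 - r := by linarith
  have hX1 : 1 ≤ X :=
    (one_le_inv₀ (Real.rpow_pos_of_pos hr1 _)).2 (Real.rpow_le_one hr1.le (by linarith) hε.le)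
  have hlog : -Real.log (1 - r) ≤ X / ε := by
    have h := Real.log_le_rpow_div (inv_nonneg.2 hr1.le) hε
    rwa [Real.log_inv, Real.inv_rpow hr1.le] at h
  have hcc0 : 0 ≤ cc := by positivity
  have hhalf : Real.log (1 - 1 / 2 : ℝ) ≤ 0 := Real.log_nonpos (by norm_num) (by norm_num)
  have hf12 : ‖f (((1 / 2 : ℝ) : ℂ) * e)‖ ^ α ≤ F' ^ α / c₀ ^ α * A := by
    refine le_trans (Real.rpow_le_rpow (norm_nonneg _) ((hF₀ ⟨_, ?_, rfl⟩).trans (le_max_left F₀ 0))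
      hα.le) ?_
    · rw [mem_sphere_zero_iff_norm, norm_mul, he, mul_one, Complex.norm_real]; norm_num
    · rw [div_mul_eq_mul_div, le_div_iff₀ (by positivity)]
      exact mul_le_mul_of_nonneg_left (Real.rpow_le_rpow hc₀.le (hgl z hz hz2) hα.le) (by positivity)
  have hA0 : 0 < A := Real.rpow_pos_of_pos (hc₀.trans_le (hgl z hz hz2)) _
  have hbound : ‖f z‖ ^ α ≤ A * (C₁ * X) := by
    have h1 : cc * (-Real.log (1 - r)) ≤ cc * (X / ε) := mul_le_mul_of_nonneg_left hlog hcc0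
    have h2 : cc * Real.log (1 - 1 / 2 : ℝ) ≤ 0 := mul_nonpos_of_nonneg_of_nonpos hcc0 hhalf
    have h3 : F' ^ α / c₀ ^ α * A ≤ F' ^ α / c₀ ^ α * A * X :=
      le_mul_of_one_le_right (by positivity) hX1
    calc ‖f z‖ ^ α ≤ F' ^ α / c₀ ^ α * A * X + cc * (X / ε) := by nlinarith
      _ ≤ _ := by
          rw [hcc, hC₁]
          have : 0 ≤ A * X := by positivity
          ring_nf
          nlinarith
  have hfp : 0 < ‖f z‖ := (norm_identity hg heq hz (norm_ne_zero_iff.1 (hr ▸ hr0.ne'))).1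
  have hgp : 0 < ‖g z‖ := hc₀.trans_le (hgl z hz hz2)
  have h4 : ‖f z‖ ^ (α - 1) ≤ ‖g z‖ ^ (α - 1) * (C₁ * X) ^ m := by
    have h5 := Real.rpow_le_rpow (by positivity) hbound hm0
    rwa [← Real.rpow_mul hfp.le, Real.mul_rpow hA0.le (by positivity), hA,
      ← Real.rpow_mul hgp.le, hm, mul_div_cancel₀ _ hα.ne'] at h5
  have h6 : ‖f z‖ ^ (1 - α) = (‖f z‖ ^ (α - 1))⁻¹ := by
    rw [← Real.rpow_neg hfp.le]; congr 1; ring
  have h7 : (C₁ * X) ^ m ≤ C₁ ^ m * X := by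
    rw [Real.mul_rpow (by linarith) (by linarith)]
    refine mul_le_mul_of_nonneg_left ?_ (by positivity)
    calc X ^ m ≤ X ^ (1 : ℝ) := Real.rpow_le_rpow_of_exponent_le hX1 hm1
      _ = X := Real.rpow_one X
  rw [h6]
  calc c₀ * C₁ ^ (-m) * (1 - r) ^ ε ≤ ‖g z‖ * C₁ ^ (-m) * (1 - r) ^ ε := by
        gcongr; exact hgl z hz hz2
    _ = ‖g z‖ ^ α * (‖g z‖ ^ (α - 1) * (C₁ ^ m * X))⁻¹ := by
        rw [Real.rpow_neg (by linarith), hX, mul_inv, mul_inv, inv_inv,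
          Real.rpow_sub_one hgp.ne', inv_div]
        have hne : ‖g z‖ ^ α ≠ 0 := (Real.rpow_pos_of_pos hgp _).ne'
        field_simp
    _ ≤ ‖g z‖ ^ α * (‖f z‖ ^ (α - 1))⁻¹ :=
        mul_le_mul_of_nonneg_left (inv_anti₀ (Real.rpow_pos_of_pos hfp _)
          (h4.trans (mul_le_mul_of_nonneg_left h7 (by positivity)))) hA0.le

end

/-- **Brennan's conjecture for Bazilevic functions.** -/
theorem brennan_bazilevic {α : ℝ} {f : ℂ → ℂ} (hf : IsBazilevic α f) {t : ℝ} (ht : -2 < t)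
    (ht0 : t ≤ 0) :
    IntegrableOn (fun z => ‖deriv f z‖ ^ t) (ball (0 : ℂ) 1) ∧
      ∀ z ∈ ball (0 : ℂ) 1, deriv f z ≠ 0 := by
  obtain ⟨hα, hfd, hinj, hf0, g, L, p, hg, hLd, hpd, ⟨c, hc, hre⟩, heq⟩ := hf
  set G := dslope g 0 with hGdef
  have hball : ball (0 : ℂ) 1 ∈ 𝓝 (0 : ℂ) := isOpen_ball.mem_nhds (mem_ball_self one_pos)
  have hGd : DifferentiableOn ℂ G (ball 0 1) := (Complex.differentiableOn_dslope hball).2 hg.1
  have hG : ∀ z : ℂ, z * G z = g z := fun z => by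
    have h := sub_smul_dslope g 0 z
    simpa [hg.2.1, hGdef] using h
  have hG0 : ∀ z ∈ ball (0 : ℂ) 1, G z ≠ 0 := fun z hz => by
    rcases eq_or_ne z 0 with rfl | h
    · rw [hGdef, dslope_same]; exact hg.2.2.1
    · exact fun h0 => (hg.2.2.2 z hz h).1 (by rw [← hG z, h0, mul_zero])
  have hp0 : ∀ z ∈ ball (0 : ℂ) 1, p z ≠ 0 := fun z hz h0 => by simpa [h0] using hre z hz
  have hFc : ContinuousOn (deriv f) (ball 0 1) :=
    ((hfd.analyticOnNhd isOpen_ball).deriv).continuousOn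
  set R : ℂ → ℂ := fun z => G z * p z * Complex.exp ((1 - (α : ℂ)) * L z) with hR
  have hRc : ContinuousOn R (ball 0 1) :=
    ((hGd.mul hpd).mul ((hLd.const_mul _).cexp)).continuousOn
  have hne0 : ∀ z ∈ ball (0 : ℂ) 1, z ≠ 0 → deriv f z = R z := fun z hz hz0 => by
    obtain ⟨h1, h2⟩ := heq z hz
    refine mul_left_cancel₀ hz0 ?_
    rw [h2, h1, ← hG z, hR]
    simp only
    rw [sub_mul, one_mul, sub_eq_add_neg, Complex.exp_add]
    ring
  have hfR : ∀ z ∈ ball (0 : ℂ) 1, deriv f z = R z := by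
    intro z hz
    rcases eq_or_ne z 0 with rfl | h
    · have h1 : Tendsto (deriv f) (𝓝[≠] (0 : ℂ)) (𝓝 (deriv f 0)) :=
        ((hFc.continuousAt hball).tendsto).mono_left nhdsWithin_le_nhds
      have h2 : Tendsto R (𝓝[≠] (0 : ℂ)) (𝓝 (R 0)) :=
        ((hRc.continuousAt hball).tendsto).mono_left nhdsWithin_le_nhds
      refine tendsto_nhds_unique_of_eventuallyEq h1 h2 ?_
      filter_upwards [nhdsWithin_le_nhds hball, self_mem_nhdsWithin] with w hw hw0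
      exact hne0 w hw hw0
    · exact hne0 z hz h
  have hd0 : ∀ z ∈ ball (0 : ℂ) 1, deriv f z ≠ 0 := fun z hz => by
    rw [hfR z hz]
    exact mul_ne_zero (mul_ne_zero (hG0 z hz) (hp0 z hz)) (Complex.exp_ne_zero _)
  refine ⟨?_, hd0⟩
  set u := -t with hu
  have hu0 : 0 ≤ u := by linarith
  have hu2 : u < 2 := by linarith
  set ε := (2 - u) / 8 with hεdef
  have hε : 0 < ε := by linarith
  set a := u / 2 with hadef
  -- the bound of `p`
  have hPd : DifferentiableOn ℂ (fun z => c * p z) (ball 0 1) := hpd.const_mul c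
  have hK : ∀ z ∈ ball (0 : ℂ) 1, ‖p z‖ ≤ (2 * ‖c * p 0‖ / ‖c‖) / (1 - ‖z‖) := fun z hz => by
    have h := norm_le_of_re_pos hPd hre hz
    rw [norm_mul] at h
    rw [div_right_comm, le_div_iff₀ (norm_pos_iff.2 hc), mul_comm]
    exact h
  obtain ⟨c₁, hc₁, hlow⟩ := factor_lower hα hfd hinj hf0 hg heq hK hε
  have hsub : closedBall (0 : ℂ) (1 / 2) ⊆ ball 0 1 := closedBall_subset_ball (by norm_num)
  obtain ⟨B, hB⟩ := (isCompact_closedBall (0 : ℂ) (1 / 2)).bddAbove_image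
    (((hpd.continuousOn.mono hsub).norm).div ((hFc.mono hsub).norm)
      fun z hz => norm_ne_zero_iff.2 (hd0 z (hsub hz)))
  set B' := max B 1
  set c₂ := min c₁ B'⁻¹
  have hB'0 : 0 < B' := lt_of_lt_of_le one_pos (le_max_right _ _)
  have hc₂ : 0 < c₂ := lt_min hc₁ (inv_pos.2 hB'0)
  have hall : ∀ z ∈ ball (0 : ℂ) 1, c₂ * (1 - ‖z‖) ^ ε * ‖p z‖ ≤ ‖deriv f z‖ := by
    intro z hz
    have hz1 : ‖z‖ < 1 := by simpa using hz
    rcases le_total (1 / 2) ‖z‖ with h | h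
    · have hz0 : z ≠ 0 := norm_ne_zero_iff.1 (by linarith)
      have h1 := hlow z hz h
      calc c₂ * (1 - ‖z‖) ^ ε * ‖p z‖ ≤ c₁ * (1 - ‖z‖) ^ ε * ‖p z‖ := by
            gcongr; exact min_le_left _ _
        _ ≤ ‖p z‖ * (‖g z‖ ^ α * ‖f z‖ ^ (1 - α)) := by
            rw [mul_comm]; gcongr
        _ = ‖z‖ * ‖deriv f z‖ := (norm_identity hg heq hz hz0).2.symm
        _ ≤ ‖deriv f z‖ := mul_le_of_le_one_left (norm_nonneg _) hz1.le
    · have hb : ‖p z‖ / ‖deriv f z‖ ≤ B' :=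
        (hB ⟨z, by simpa using h, rfl⟩).trans (le_max_left _ _)
      rw [div_le_iff₀ (norm_pos_iff.2 (hd0 z hz))] at hb
      calc c₂ * (1 - ‖z‖) ^ ε * ‖p z‖ ≤ B'⁻¹ * 1 * ‖p z‖ := by
            gcongr
            · exact min_le_right _ _
            · exact Real.rpow_le_one (by linarith) (by linarith [norm_nonneg z]) hε.le
        _ ≤ ‖deriv f z‖ := by
            rw [mul_one, inv_mul_le_iff₀ hB'0]; exact hb
  -- the majorant
  set Q : ℂ → ℂ := fun z => (c * p z)⁻¹ with hQdef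
  have hQre : ∀ z ∈ ball (0 : ℂ) 1, 0 < (Q z).re := fun z hz => by
    simp only [hQdef, Complex.inv_re]
    exact div_pos (hre z hz) (Complex.normSq_pos.2 (mul_ne_zero hc (hp0 z hz)))
  have hQd : DifferentiableOn ℂ Q (ball 0 1) := hPd.inv fun z hz => mul_ne_zero hc (hp0 z hz)
  set W : ℂ → ℂ := fun z => Q z ^ (a : ℂ) with hWdef
  have hWd : DifferentiableOn ℂ W (ball 0 1) :=
    hQd.cpow_const fun z hz => Or.inl (hQre z hz)
  set κ := Real.cos (a * (Real.pi / 2)) with hκdef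
  have hκ : 0 < κ := Real.cos_pos_of_mem_Ioo ⟨by nlinarith [Real.pi_pos], by nlinarith [Real.pi_pos]⟩
  have hW : ∀ z ∈ ball (0 : ℂ) 1, κ * ‖Q z‖ ^ a ≤ (W z).re := fun z hz => by
    simp only [hWdef, Complex.cpow_ofReal_re]
    rw [mul_comm]
    refine mul_le_mul_of_nonneg_left ?_ (Real.rpow_nonneg (norm_nonneg _) _)
    rw [← Real.cos_abs ((Q z).arg * a), hκdef]
    refine Real.cos_le_cos_of_nonneg_of_le_pi (abs_nonneg _) (by nlinarith [Real.pi_pos]) ?_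
    rw [abs_mul, abs_of_nonneg (show 0 ≤ a by linarith), mul_comm]
    exact mul_le_mul_of_nonneg_left (Complex.abs_arg_le_pi_div_two_iff.2 (hQre z hz).le)
      (by linarith)
  have hW0 : ∀ z ∈ ball (0 : ℂ) 1, 0 ≤ (W z).re := fun z hz =>
    le_trans (by positivity) (hW z hz)
  set K₂ := 2 * ‖Q 0‖
  set C := c₂ ^ (-u) * ‖c‖ ^ u * (K₂ ^ a / κ) with hC
  have hint := (integrableOn_weight hWd hW0 (e := ε * u + a) (by
    rw [hεdef, hadef]; nlinarith)).const_mul C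
  refine Integrable.mono' hint ((hFc.norm.rpow_const fun z hz =>
    Or.inl (norm_ne_zero_iff.2 (hd0 z hz))).aestronglyMeasurable measurableSet_ball) ?_
  refine ae_restrict_of_forall_mem measurableSet_ball fun z hz => ?_
  have hz1 : ‖z‖ < 1 := by simpa using hz
  have hr1 : 0 < 1 - ‖z‖ := by linarith
  have hpp : 0 < ‖p z‖ := norm_pos_iff.2 (hp0 z hz)
  have hQn : ‖Q z‖ ≤ K₂ / (1 - ‖z‖) := norm_le_of_re_pos hQd hQre hz
  rw [Real.norm_eq_abs, abs_of_nonneg (Real.rpow_nonneg (norm_nonneg _) _)]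
  have hQp : ‖p z‖ ^ (-u) = ‖c‖ ^ u * (‖Q z‖ ^ a * ‖Q z‖ ^ a) := by
    have hQpos : 0 < ‖Q z‖ := norm_pos_iff.2 fun h => by simpa [h] using hQre z hz
    rw [← Real.rpow_add hQpos, show a + a = u by rw [hadef]; ring,
      ← Real.mul_rpow (norm_nonneg _) hQpos.le, Real.rpow_neg hpp.le, ← Real.inv_rpow hpp.le]
    congr 1
    simp only [hQdef, norm_inv, norm_mul]
    have : ‖c‖ ≠ 0 := norm_ne_zero_iff.2 hc
    field_simp
  calc ‖deriv f z‖ ^ t = ‖deriv f z‖ ^ (-u) := by rw [hu, neg_neg]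
    _ ≤ (c₂ * (1 - ‖z‖) ^ ε * ‖p z‖) ^ (-u) :=
        Real.rpow_le_rpow_of_nonpos (by positivity) (hall z hz) (by linarith)
    _ = c₂ ^ (-u) * (1 - ‖z‖) ^ (-(ε * u)) * (‖c‖ ^ u * (‖Q z‖ ^ a * ‖Q z‖ ^ a)) := by
        rw [Real.mul_rpow (by positivity) hpp.le, Real.mul_rpow hc₂.le (by positivity),
          ← Real.rpow_mul hr1.le, hQp, mul_neg]
    _ ≤ c₂ ^ (-u) * (1 - ‖z‖) ^ (-(ε * u)) *
          (‖c‖ ^ u * ((K₂ / (1 - ‖z‖)) ^ a * ((W z).re / κ))) := by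
        gcongr
        rw [le_div_iff₀ hκ, mul_comm]
        exact hW z hz
    _ = C * ((W z).re * (1 - ‖z‖) ^ (-(ε * u + a))) := by
        rw [Real.div_rpow (by positivity) hr1.le, neg_add, Real.rpow_add hr1, Real.rpow_neg hr1.le a,
          hC]
        ring

end Vale.Agent.P142
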