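import Mathlib

/-!
# P142: starlike and Bazilevic functions on the unit disk
-/

noncomputable section

open Metric

namespace Vale.Agent.P142

/-- `g` is a starlike function on the unit disk. -/
def IsStarlike (g : ℂ → ℂ) : Prop :=
  DifferentiableOn ℂ g (ball 0 1) ∧ g 0 = 0 ∧ deriv g 0 ≠ 0 ∧
    ∀ z ∈ ball (0 : ℂ) 1, z ≠ 0 → g z ≠ 0 ∧ 0 < (z * deriv g z / g z).re

/-- `f` is a Bazilevic function of type `α`: `z f'/f * (f/g)^α = p` for a starlike `g` and a function
`p` with values in an open half plane through the origin, the branch of the power being given by a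
logarithm `L` of `f/g`. -/
def IsBazilevic (α : ℝ) (f : ℂ → ℂ) : Prop :=
  0 < α ∧ DifferentiableOn ℂ f (ball 0 1) ∧ Set.InjOn f (ball 0 1) ∧ f 0 = 0 ∧
    ∃ g L p : ℂ → ℂ, IsStarlike g ∧ DifferentiableOn ℂ L (ball 0 1) ∧
      DifferentiableOn ℂ p (ball 0 1) ∧
      (∃ c : ℂ, c ≠ 0 ∧ ∀ z ∈ ball (0 : ℂ) 1, 0 < (c * p z).re) ∧
      ∀ z ∈ ball (0 : ℂ) 1, f z = g z * Complex.exp (L z) ∧
        z * deriv f z = f z * (p z * Complex.exp (-((α : ℂ) * L z)))

end Vale.Agent.P142
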