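import Vale.Agent.P142.Defs

/-!
# The Koebe function is a Bazilevic function of every type
-/

noncomputable section

open Metric

namespace Vale.Agent.P142

/-- The Koebe function. -/
def koebe (z : ℂ) : ℂ := z / (1 - z) ^ 2

theorem isBazilevic_koebe {α : ℝ} (hα : 0 < α) : IsBazilevic α koebe := by
  have hne : ∀ z ∈ ball (0 : ℂ) 1, (1 : ℂ) - z ≠ 0 := fun z hz h => by
    rw [sub_eq_zero] at h
    simp [← h] at hz
  have hd : DifferentiableOn ℂ koebe (ball 0 1) :=
    differentiableOn_id.div ((differentiableOn_id.const_sub 1).pow 2) fun z hz =>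
      pow_ne_zero 2 (hne z hz)
  have hder : ∀ z ∈ ball (0 : ℂ) 1, deriv koebe z = (1 + z) / (1 - z) ^ 3 := fun z hz => by
    have h := (hasDerivAt_id z).div (((hasDerivAt_id z).const_sub 1).pow 2) (pow_ne_zero 2 (hne z hz))
    refine h.deriv.trans ?_
    have := hne z hz
    simp only [id_eq, Pi.pow_apply]
    field_simp
    push_cast
    ring
  have hq : ∀ z ∈ ball (0 : ℂ) 1, z * deriv koebe z = koebe z * ((1 + z) / (1 - z)) := fun z hz => by
    have := hne z hz
    rw [hder z hz, koebe]
    field_simp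
  have hre : ∀ z ∈ ball (0 : ℂ) 1, 0 < ((1 + z) / (1 - z)).re := fun z hz => by
    have hn : Complex.normSq z < 1 := by
      rw [← Complex.sq_norm]
      have : ‖z‖ < 1 := by simpa using hz
      nlinarith [norm_nonneg z]
    rw [Complex.div_re, ← add_div]
    refine div_pos ?_ (Complex.normSq_pos.2 (hne z hz))
    simp only [Complex.normSq_apply] at hn
    simp only [Complex.add_re, Complex.add_im, Complex.sub_re, Complex.sub_im, Complex.one_re,
      Complex.one_im]
    nlinarith
  have hz : ∀ z ∈ ball (0 : ℂ) 1, z ≠ 0 → koebe z ≠ 0 := fun z hz h0 =>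
    div_ne_zero h0 (pow_ne_zero 2 (hne z hz))
  refine ⟨hα, hd, fun z hz' w hw he => ?_, by simp [koebe], koebe, fun _ => 0,
    fun z => (1 + z) / (1 - z), ⟨hd, by simp [koebe], ?_, fun z hz' h0 => ⟨hz z hz' h0, ?_⟩⟩,
    differentiableOn_const 0,
    ((differentiableOn_id.const_add 1).div (differentiableOn_id.const_sub 1) hne),
    ⟨1, one_ne_zero, fun z hz' => by simpa using hre z hz'⟩,
    fun z hz' => ⟨by simp, by simpa using hq z hz'⟩⟩
  · by_contra hzw
    rw [koebe, koebe, div_eq_div_iff (pow_ne_zero 2 (hne z hz')) (pow_ne_zero 2 (hne w hw))] at he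
    have h : (z - w) * (1 - z * w) = 0 := by linear_combination he
    rcases mul_eq_zero.1 h with h | h
    · exact hzw (sub_eq_zero.1 h)
    · rw [mem_ball_zero_iff] at hz' hw
      have h1 : ‖z * w‖ = 1 := by rw [← sub_eq_zero.1 h, norm_one]
      rw [norm_mul] at h1
      nlinarith [norm_nonneg z, norm_nonneg w]
  · rw [hder 0 (mem_ball_self one_pos)]; simp
  · rw [hq z hz', mul_div_cancel_left₀ _ (hz z hz' h0)]
    exact hre z hz'

end Vale.Agent.P142
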